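import Vale.Agent.P236JH.Full

/-!
# P236: the Kervaire invariant problem at the prime three

There is a stable homotopy category with a suspension spectrum functor; in each of them the mod
three Eilenberg-Mac Lane ring spectrum `H` and the Adams tower of the sphere exist, the class `b_j`
is well defined up to sign, it survives nontrivially exactly for `j = 0, 2, 3`, and in these cases
it detects an element of order three.

The statement uses only the definitions of `P251/T/Axioms`, `P251/St/Base`, `P251/St/Chrom`,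
`P236Z/Top/St` and `P236K/St`.
-/

namespace Vale.Agent.Results.P236.Kervaire

open Vale.Agent.P251.St Vale.Agent.P251.St.SHCat Vale.Agent.P236Z.St Vale.Agent.P236K.St

theorem result : (∃ T : SHCat, Nonempty (Susp T)) ∧ ∀ (T : SHCat) (_ : Susp T),
    (∃ R : RingSp T, IsHF 3 R.unit) ∧
    ∀ R : RingSp T, IsHF 3 R.unit → Nonempty (AdamsTower R.unit) ∧
      (∃ ξ : Hom (sph T 4) (ten R.obj R.obj), ξ ≠ 0) ∧
      ∀ (A : AdamsTower R.unit) (ξ : Hom (sph T 4) (ten R.obj R.obj)), ξ ≠ 0 →
        (∀ η : Hom (sph T 4) (ten R.obj R.obj), η = 0 ∨ η = ξ ∨ η = -ξ) ∧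
        (∀ j : ℕ, ∃ b, ∀ b', IsB A ξ j b' ↔ b' = b ∨ b' = -b) ∧
        K A ξ = {0, 2, 3} ∧
        ∀ j ∈ K A ξ, ∀ b, IsB A ξ j b → ∃ θ, addOrderOf θ = 3 ∧ Detects A b θ :=
  Vale.Agent.P236JH.full

end Vale.Agent.Results.P236.Kervaire
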